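import Mathlib

/-!
# Seymour's second neighbourhood conjecture: the core argument

`V` finite, `R x` = closed out-neighbourhood of `x` (so `x ∈ R x` and no two-cycles),
`w > 0` a weight, `nb R S = ⋃ x ∈ S, R x`, `c S = w (nb R S) - w S`.
Core theorem: if no vertex is a sink and `c (nb S) < c S` whenever `nb S ≠ S`, contradiction.
-/

namespace P038.H684

open Finset

set_option linter.unusedSectionVars false

variable {V : Type*} [Fintype V] [DecidableEq V]

/-- closed out-neighbourhood of a set -/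
def nb (R : V → Finset V) (S : Finset V) : Finset V := S.biUnion R

theorem mem_nb {R : V → Finset V} {S : Finset V} {y : V} :
    y ∈ nb R S ↔ ∃ x ∈ S, y ∈ R x := by
  simp [nb]

/-- weight of a set -/
def wt (w : V → ℝ) (S : Finset V) : ℝ := ∑ x ∈ S, w x

/-- the excess `w (N[S]) - w (S)` -/
def cc (R : V → Finset V) (w : V → ℝ) (S : Finset V) : ℝ := wt w (nb R S) - wt w S

/-- `⋂ P_a` over the closed in-neighbours `a` of `z` -/
def inn (R P : V → Finset V) (z : V) : Finset V :=
  univ.filter (fun x => ∀ a, z ∈ R a → x ∈ P a)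

theorem mem_inn {R P : V → Finset V} {z x : V} :
    x ∈ inn R P z ↔ ∀ a, z ∈ R a → x ∈ P a := by
  simp [inn]

/-- pairs -/
structure Pair (R P Q : V → Finset V) : Prop where
  p : ∀ a, R a ⊆ P a
  q : ∀ a, R a ⊆ Q a
  s : ∀ a b, b ∈ P a → a ∈ Q b → a = b

/-- the energy -/
def EE (R : V → Finset V) (w : V → ℝ) (P : V → Finset V) : ℝ := ∑ a, w a * cc R w (P a)

theorem wt_union_inter (w : V → ℝ) (S T : Finset V) :
    wt w (S ∪ T) + wt w (S ∩ T) = wt w S + wt w T :=
  Finset.sum_union_inter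

theorem wt_mono {w : V → ℝ} (hw : ∀ x, 0 ≤ w x) {S T : Finset V} (h : S ⊆ T) :
    wt w S ≤ wt w T :=
  Finset.sum_le_sum_of_subset_of_nonneg h (fun x _ _ => hw x)

theorem cc_submod (R : V → Finset V) {w : V → ℝ} (hw : ∀ x, 0 ≤ w x) (S T : Finset V) :
    cc R w (S ∪ T) + cc R w (S ∩ T) ≤ cc R w S + cc R w T := by
  have h1 : nb R (S ∪ T) = nb R S ∪ nb R T := by
    ext y
    simp only [mem_nb, mem_union]
    constructor
    · rintro ⟨x, hx | hx, hy⟩
      · exact Or.inl ⟨x, hx, hy⟩
      · exact Or.inr ⟨x, hx, hy⟩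
    · rintro (⟨x, hx, hy⟩ | ⟨x, hx, hy⟩)
      · exact ⟨x, Or.inl hx, hy⟩
      · exact ⟨x, Or.inr hx, hy⟩
  have h2 : nb R (S ∩ T) ⊆ nb R S ∩ nb R T := by
    intro y
    simp only [mem_nb, mem_inter]
    rintro ⟨x, ⟨hx, hx'⟩, hy⟩
    exact ⟨⟨x, hx, hy⟩, ⟨x, hx', hy⟩⟩
  have h3 := wt_mono hw h2
  have h4 := wt_union_inter w (nb R S) (nb R T)
  have h5 := wt_union_inter w S T
  unfold cc
  rw [h1]
  linarith

/-! ### (A) Hall layer lemma -/

theorem layer_aux (r : V → Finset V) {w : V → ℝ} (hw : ∀ x, 0 ≤ w x) (n : ℕ) :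
    ∀ (G : Finset V) (u D : V → ℝ), G.card = n →
    (∀ b ∈ G, 0 ≤ u b) → (∀ b ∈ G, ∀ y ∈ r b, u b ≤ D y) →
    (∀ O ⊆ G, ∑ b ∈ O, w b ≤ ∑ y ∈ O.biUnion r, w y) →
    ∑ b ∈ G, w b * u b ≤ ∑ y ∈ G.biUnion r, w y * D y := by
  induction n with
  | zero =>
    intro G u D hG _ _ _
    rw [Finset.card_eq_zero] at hG
    subst hG
    simp
  | succ n ih =>
    intro G u D hG hu hr hall
    have hne : G.Nonempty := by
      rw [← Finset.card_pos]; omega
    obtain ⟨b0, hb0, hmin⟩ := G.exists_min_image u hne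
    set m := u b0 with hm
    have hm0 : 0 ≤ m := hu b0 hb0
    have hDm : ∀ y ∈ G.biUnion r, m ≤ D y := by
      intro y hy
      rw [Finset.mem_biUnion] at hy
      obtain ⟨b, hb, hby⟩ := hy
      exact (hmin b hb).trans (hr b hb y hby)
    have hsub : G.erase b0 ⊆ G := Finset.erase_subset _ _
    have key := ih (G.erase b0) (fun b => u b - m) (fun y => D y - m)
      (by rw [Finset.card_erase_of_mem hb0, hG]; rfl)
      (fun b hb => by
        have := hmin b (hsub hb)
        show 0 ≤ u b - m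
        linarith)
      (fun b hb y hy => by
        have := hr b (hsub hb) y hy
        show u b - m ≤ D y - m
        linarith)
      (fun O hO => hall O (hO.trans hsub))
    have h1 : ∑ b ∈ G.erase b0, w b * (u b - m) = ∑ b ∈ G, w b * (u b - m) := by
      rw [← Finset.add_sum_erase G (fun b => w b * (u b - m)) hb0]
      simp [hm]
    have h2 : ∑ y ∈ (G.erase b0).biUnion r, w y * (D y - m)
        ≤ ∑ y ∈ G.biUnion r, w y * (D y - m) := by
      apply Finset.sum_le_sum_of_subset_of_nonneg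
      · exact Finset.biUnion_subset_biUnion_of_subset_left r hsub
      · intro y hy _
        exact mul_nonneg (hw y) (by have := hDm y hy; linarith)
    have h3 : ∑ b ∈ G, w b * (u b - m) = ∑ b ∈ G, w b * u b - m * ∑ b ∈ G, w b := by
      rw [Finset.mul_sum, ← Finset.sum_sub_distrib]
      refine Finset.sum_congr rfl (fun b _ => by ring)
    have h4 : ∑ y ∈ G.biUnion r, w y * (D y - m)
        = ∑ y ∈ G.biUnion r, w y * D y - m * ∑ y ∈ G.biUnion r, w y := by
      rw [Finset.mul_sum, ← Finset.sum_sub_distrib]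
      refine Finset.sum_congr rfl (fun b _ => by ring)
    have h5 := hall G (Finset.Subset.refl _)
    have h6 := mul_le_mul_of_nonneg_left h5 hm0
    have h7 : ∑ b ∈ G.erase b0, w b * (u b - m)
        ≤ ∑ y ∈ (G.erase b0).biUnion r, w y * (D y - m) := key
    linarith

/-- Hall layer lemma -/
theorem layer (r : V → Finset V) {w : V → ℝ} (hw : ∀ x, 0 ≤ w x)
    (G T : Finset V) (u D : V → ℝ)
    (hu : ∀ b ∈ G, 0 ≤ u b) (hr : ∀ b ∈ G, ∀ y ∈ r b, u b ≤ D y)
    (hall : ∀ O ⊆ G, ∑ b ∈ O, w b ≤ ∑ y ∈ O.biUnion r, w y)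
    (hT : ∀ b ∈ G, ∀ y ∈ r b, y ∈ T) (hD : ∀ y ∈ T, 0 ≤ D y) :
    ∑ b ∈ G, w b * u b ≤ ∑ y ∈ T, w y * D y := by
  refine (layer_aux r hw G.card G u D rfl hu hr hall).trans ?_
  apply Finset.sum_le_sum_of_subset_of_nonneg
  · intro y hy
    rw [Finset.mem_biUnion] at hy
    obtain ⟨b, hb, hby⟩ := hy
    exact hT b hb y hby
  · intro y hy _
    exact mul_nonneg (hw y) (hD y hy)

/-! ### (B) truncated marginals -/

/-- `min` over `K' ⊆ K` of `c (B \ K')` -/
noncomputable def hh (c : Finset V → ℝ) (B K : Finset V) : ℝ :=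
  K.powerset.inf' ⟨∅, Finset.empty_mem_powerset K⟩ (fun K' => c (B \ K'))

theorem hh_le (c : Finset V → ℝ) (B : Finset V) {K K' : Finset V} (h : K' ⊆ K) :
    hh c B K ≤ c (B \ K') :=
  Finset.inf'_le (fun K' => c (B \ K')) (Finset.mem_powerset.2 h)

theorem hh_exists (c : Finset V → ℝ) (B K : Finset V) :
    ∃ K' ⊆ K, hh c B K = c (B \ K') := by
  obtain ⟨K', h1, h2⟩ := Finset.exists_mem_eq_inf' (s := K.powerset)
    ⟨∅, Finset.empty_mem_powerset K⟩ (fun K' => c (B \ K'))
  exact ⟨K', Finset.mem_powerset.1 h1, h2⟩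

theorem hh_anti (c : Finset V → ℝ) (B : Finset V) {K L : Finset V} (h : K ⊆ L) :
    hh c B L ≤ hh c B K := by
  obtain ⟨K', h1, h2⟩ := hh_exists c B K
  rw [h2]
  exact hh_le c B (h1.trans h)

theorem hh_empty (c : Finset V → ℝ) (B : Finset V) : hh c B ∅ = c B := by
  obtain ⟨K', h1, h2⟩ := hh_exists c B ∅
  rw [Finset.subset_empty] at h1
  rw [h2, h1, Finset.sdiff_empty]

/-- the part of `K` strictly before `a` -/
def bef (e : V → ℕ) (K : Finset V) (a : V) : Finset V := K.filter (fun v => e v < e a)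

theorem mem_bef {e : V → ℕ} {K : Finset V} {a v : V} : v ∈ bef e K a ↔ v ∈ K ∧ e v < e a := by
  simp [bef]

/-- truncated marginal -/
noncomputable def mg (e : V → ℕ) (c : Finset V → ℝ) (B K : Finset V) (a : V) : ℝ :=
  hh c B (bef e K a) - hh c B (insert a (bef e K a))

theorem mg_nonneg (e : V → ℕ) (c : Finset V → ℝ) (B K : Finset V) (a : V) :
    0 ≤ mg e c B K a := by
  have := hh_anti c B (Finset.subset_insert a (bef e K a))
  unfold mg
  linarith

theorem telesc {e : V → ℕ} (he : Function.Injective e) (f : Finset V → ℝ) (K : Finset V) :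
    ∑ a ∈ K, (f (bef e K a) - f (insert a (bef e K a))) = f ∅ - f K := by
  induction K using Finset.induction_on_max_value e with
  | empty => simp
  | insert a s has hmax ih =>
    rw [Finset.sum_insert has]
    have hlt : ∀ x ∈ s, e x < e a := by
      intro x hx
      refine lt_of_le_of_ne (hmax x hx) (fun h => ?_)
      have := he h
      subst this
      exact has hx
    have h1 : bef e (insert a s) a = s := by
      ext v
      rw [mem_bef, Finset.mem_insert]
      constructor
      · rintro ⟨rfl | h, h'⟩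
        · exact absurd h' (lt_irrefl _)
        · exact h
      · intro h
        exact ⟨Or.inr h, hlt v h⟩
    have h2 : ∀ x ∈ s, bef e (insert a s) x = bef e s x := by
      intro x hx
      ext v
      rw [mem_bef, mem_bef, Finset.mem_insert]
      constructor
      · rintro ⟨rfl | h, h'⟩
        · exact absurd h' (not_lt.2 (hmax x hx))
        · exact ⟨h, h'⟩
      · rintro ⟨h, h'⟩
        exact ⟨Or.inr h, h'⟩
    have h3 : ∑ x ∈ s, (f (bef e (insert a s) x) - f (insert x (bef e (insert a s) x)))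
        = ∑ x ∈ s, (f (bef e s x) - f (insert x (bef e s x))) := by
      refine Finset.sum_congr rfl (fun x hx => ?_)
      rw [h2 x hx]
    rw [h3, ih, h1]
    ring

theorem mg_sum {e : V → ℕ} (he : Function.Injective e) (c : Finset V → ℝ) (B K : Finset V) :
    ∑ a ∈ K, mg e c B K a = c B - hh c B K := by
  have := telesc he (hh c B) K
  rw [hh_empty] at this
  exact this

theorem mg_le {e : V → ℕ} {c : Finset V → ℝ}
    (hc : ∀ S T : Finset V, c (S ∪ T) + c (S ∩ T) ≤ c S + c T)
    {B K M New : Finset V} {a : V} (hMB : M ⊆ B) (hKN : ∀ v ∈ K, v ∈ M → v ∈ New)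
    (haM : a ∈ M) :
    mg e c B K a ≤ mg e c M New a := by
  obtain ⟨K1, hK1, e1⟩ := hh_exists c B (insert a (bef e K a))
  obtain ⟨K2, hK2, e2⟩ := hh_exists c M (bef e New a)
  have haK2 : a ∉ K2 := by
    intro h
    have := (mem_bef.1 (hK2 h)).2
    exact lt_irrefl _ this
  have hsub := hc (B \ K1) (M \ K2)
  have i1 : (B \ K1) ∩ (M \ K2) = M \ ((K1 ∩ M) ∪ K2) := by
    ext v
    simp only [mem_inter, mem_sdiff, mem_union]
    constructor
    · rintro ⟨⟨_, h2⟩, h3, h4⟩
      exact ⟨h3, fun h => h.elim (fun h => h2 h.1) h4⟩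
    · rintro ⟨h1, h2⟩
      exact ⟨⟨hMB h1, fun h => h2 (Or.inl ⟨h, h1⟩)⟩, h1, fun h => h2 (Or.inr h)⟩
  have i2 : (B \ K1) ∪ (M \ K2) = B \ (K1 \ (M \ K2)) := by
    ext v
    simp only [mem_sdiff, mem_union]
    constructor
    · rintro (⟨h1, h2⟩ | h)
      · exact ⟨h1, fun h => h2 h.1⟩
      · exact ⟨hMB h.1, fun h' => h'.2 h⟩
    · rintro ⟨h1, h2⟩
      by_cases h : v ∈ K1
      · right
        by_contra h3
        exact h2 ⟨h, h3⟩
      · exact Or.inl ⟨h1, h⟩
  have j1 : hh c M (insert a (bef e New a)) ≤ c (M \ ((K1 ∩ M) ∪ K2)) := by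
    apply hh_le
    intro v hv
    rw [mem_union, mem_inter] at hv
    rcases hv with ⟨h1, h2⟩ | h
    · have := hK1 h1
      rw [mem_insert] at this ⊢
      rcases this with h | h
      · exact Or.inl h
      · right
        rw [mem_bef] at h ⊢
        exact ⟨hKN v h.1 h2, h.2⟩
    · exact mem_insert_of_mem (hK2 h)
  have j2 : hh c B (bef e K a) ≤ c (B \ (K1 \ (M \ K2))) := by
    apply hh_le
    intro v hv
    rw [mem_sdiff] at hv
    have := hK1 hv.1
    rw [mem_insert] at this
    rcases this with h | h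
    · exfalso
      apply hv.2
      rw [h, mem_sdiff]
      exact ⟨haM, haK2⟩
    · exact h
  rw [i1, i2, ← e1, ← e2] at hsub
  unfold mg
  linarith

/-! ### The pair construction -/

section pair

variable {R P Q : V → Finset V}

/-- Step 0 -/
theorem Pair.step0 (hR : ∀ x, x ∈ R x) (h : Pair R P Q) :
    Pair R (fun a => nb R (inn R P a)) (fun a => nb R (inn R Q a)) where
  p := fun a y hy => mem_nb.2 ⟨a, mem_inn.2 (fun s hs => h.p s hs), hy⟩
  q := fun a y hy => mem_nb.2 ⟨a, mem_inn.2 (fun s hs => h.q s hs), hy⟩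
  s := fun a b hb ha => by
    obtain ⟨x, hx, hbx⟩ := mem_nb.1 hb
    obtain ⟨y, hy, hay⟩ := mem_nb.1 ha
    rw [mem_inn] at hx hy
    have hxy : y = x := h.s y x (hx y hay) (hy x hbx)
    subst hxy
    have h1 : a = y := h.s a y (hx a (hR a)) (h.q y hay)
    have h2 : y = b := h.s y b (h.p y hbx) (hy b (hR b))
    exact h1.trans h2

/-- the maximal partner of `P` -/
def mx (P : V → Finset V) (b : V) : Finset V := univ.filter (fun a => a = b ∨ b ∉ P a)

theorem mem_mx {a b : V} : a ∈ mx P b ↔ a = b ∨ b ∉ P a := by simp [mx]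

theorem Pair.sub_mx (h : Pair R P Q) (b : V) : Q b ⊆ mx P b := by
  intro a ha
  rw [mem_mx]
  by_contra hcon
  push Not at hcon
  exact hcon.1 (h.s a b hcon.2 ha)

theorem Pair.mx (h : Pair R P Q) : Pair R P (mx P) where
  p := h.p
  q := fun a => (h.q a).trans (h.sub_mx a)
  s := fun a b hb ha => by
    rw [mem_mx] at ha
    rcases ha with h | h
    · exact h
    · exact absurd hb h

end pair

/-! ### indicator formulas -/

/-- indicator -/
def id01 (S : Finset V) (x : V) : ℝ := if x ∈ S then 1 else 0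

theorem id01_pos {S : Finset V} {x : V} (h : x ∈ S) : id01 S x = 1 := by simp [id01, h]
theorem id01_neg {S : Finset V} {x : V} (h : x ∉ S) : id01 S x = 0 := by simp [id01, h]

theorem wt_eq (w : V → ℝ) (S : Finset V) : wt w S = ∑ x, w x * id01 S x := by
  unfold wt id01
  simp [Finset.sum_ite_mem]

theorem cc_eq (R : V → Finset V) (w : V → ℝ) (S : Finset V) :
    cc R w S = ∑ x, w x * (id01 (nb R S) x - id01 S x) := by
  unfold cc
  rw [wt_eq, wt_eq, ← Finset.sum_sub_distrib]
  exact Finset.sum_congr rfl (fun x _ => by ring)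

theorem EE_eq (R : V → Finset V) (w : V → ℝ) (P : V → Finset V) :
    EE R w P = ∑ a, ∑ y, w a * w y * (id01 (nb R (P a)) y - id01 (P a) y) := by
  unfold EE
  refine Finset.sum_congr rfl (fun a _ => ?_)
  rw [cc_eq, Finset.mul_sum]
  exact Finset.sum_congr rfl (fun x _ => by ring)

theorem EE_eq' (R : V → Finset V) (w : V → ℝ) (P : V → Finset V) :
    EE R w P = ∑ a, ∑ y, w a * w y * (id01 (nb R (P y)) a - id01 (P y) a) := by
  rw [EE_eq, Finset.sum_comm]
  refine Finset.sum_congr rfl (fun a _ => Finset.sum_congr rfl (fun y _ => by ring))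

/-- (1L) -/
theorem oneL {R P Q : V → Finset V} (hR : ∀ x, x ∈ R x) {w : V → ℝ} (hw : ∀ x, 0 ≤ w x)
    (h : Pair R P Q) :
    EE R w (inn R P) + EE R w (inn R (mx P)) ≤ EE R w P + EE R w (mx P) := by
  rw [EE_eq R w (inn R P), EE_eq' R w (inn R (mx P)), EE_eq R w P, EE_eq' R w (mx P)]
  rw [← Finset.sum_add_distrib, ← Finset.sum_add_distrib]
  refine Finset.sum_le_sum (fun a _ => ?_)
  rw [← Finset.sum_add_distrib, ← Finset.sum_add_distrib]
  refine Finset.sum_le_sum (fun y _ => ?_)
  rw [← mul_add, ← mul_add]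
  refine mul_le_mul_of_nonneg_left ?_ (mul_nonneg (hw a) (hw y))
  have hv : ∀ s t, t ∈ P s → s ∈ R t → s = t := fun s t h1 h2 => h.s s t h1 (h.q t h2)
  have hsP : ∀ s, inn R P s ⊆ P s := fun s v hv => mem_inn.1 hv s (hR s)
  have hN : ∀ S : Finset V, S ⊆ nb R S := fun S v hv => mem_nb.2 ⟨v, hv, hR v⟩
  by_cases hay : a = y
  · subst hay
    have k1 : a ∈ P a := h.p a (hR a)
    have k2 : a ∈ mx P a := mem_mx.2 (Or.inl rfl)
    have k3 : a ∈ inn R P a := mem_inn.2 (fun s hs => h.p s hs)
    have k4 : a ∈ inn R (mx P) a := mem_inn.2 (fun s hs => h.mx.q s hs)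
    rw [id01_pos k1, id01_pos k2, id01_pos k3, id01_pos k4, id01_pos (hN _ k1),
      id01_pos (hN _ k2), id01_pos (hN _ k3), id01_pos (hN _ k4)]
  · -- `a ∈ N[Q'_y] ↔ y ∉ X_a`
    have f1 : id01 (nb R (mx P y)) a = 1 - id01 (inn R P a) y := by
      by_cases hc : y ∈ inn R P a
      · rw [id01_pos hc, id01_neg, sub_self]
        intro hcon
        obtain ⟨x, hx, hax⟩ := mem_nb.1 hcon
        rcases mem_mx.1 hx with h1 | h1
        · subst h1
          exact hay (hv a x (hsP a hc) hax)
        · exact h1 (mem_inn.1 hc x hax)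
      · rw [id01_neg hc, id01_pos, sub_zero]
        rw [mem_inn] at hc
        push Not at hc
        obtain ⟨x, hx, hyx⟩ := hc
        exact mem_nb.2 ⟨x, mem_mx.2 (Or.inr hyx), hx⟩
    have f2 : id01 (mx P y) a = 1 - id01 (P a) y := by
      by_cases hc : y ∈ P a
      · rw [id01_pos hc, id01_neg, sub_self]
        intro hcon
        rcases mem_mx.1 hcon with h1 | h1
        · exact hay h1
        · exact h1 hc
      · rw [id01_neg hc, id01_pos (mem_mx.2 (Or.inr hc)), sub_zero]
    have f3 : id01 (inn R (mx P) y) a = 1 - id01 (nb R (P a)) y := by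
      by_cases hc : y ∈ nb R (P a)
      · rw [id01_pos hc, id01_neg, sub_self]
        intro hcon
        rw [mem_inn] at hcon
        obtain ⟨x, hx, hyx⟩ := mem_nb.1 hc
        rcases mem_mx.1 (hcon x hyx) with h1 | h1
        · subst h1
          rcases mem_mx.1 (hcon y (hR y)) with h2 | h2
          · exact hay h2
          · exact h2 (h.p a hyx)
        · exact h1 hx
      · rw [id01_neg hc, id01_pos, sub_zero]
        rw [mem_inn]
        intro x hyx
        rw [mem_mx]
        right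
        intro hx
        exact hc (mem_nb.2 ⟨x, hx, hyx⟩)
    have f4 : id01 (nb R (inn R P a)) y ≤ 1 - id01 (nb R (inn R (mx P) y)) a := by
      by_cases hc : y ∈ nb R (inn R P a)
      · rw [id01_pos hc, id01_neg]
        · norm_num
        intro hcon
        obtain ⟨s, hs, has⟩ := mem_nb.1 hcon
        obtain ⟨x, hx, hyx⟩ := mem_nb.1 hc
        rw [mem_inn] at hx hs
        have hxs : x ∈ P s := hx s has
        rcases mem_mx.1 (hs x hyx) with h1 | h1
        · subst h1
          rcases mem_mx.1 (hs y (hR y)) with h2 | h2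
          · subst h2
            exact hay (hv a s (hx a (hR a)) has)
          · exact h2 (h.p s hyx)
        · exact h1 hxs
      · rw [id01_neg hc]
        unfold id01
        split_ifs <;> norm_num
    rw [f1, f2, f3]
    linarith

end P038.H684
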