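import Vale.Agent.P038.H684.Core

namespace P038.H684

open Finset

set_option linter.unusedSectionVars false

variable {V : Type*} [Fintype V] [DecidableEq V]

/-- change of the energy under a change of one set -/
theorem EE_update (R : V → Finset V) (w : V → ℝ) (P : V → Finset V) (b : V) (S : Finset V) :
    EE R w (Function.update P b S) = EE R w P - w b * cc R w (P b) + w b * cc R w S := by
  unfold EE
  rw [← Finset.add_sum_erase univ (fun a => w a * cc R w (Function.update P b S a)) (mem_univ b),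
    ← Finset.add_sum_erase univ (fun a => w a * cc R w (P a)) (mem_univ b)]
  have : ∑ x ∈ univ.erase b, w x * cc R w (Function.update P b S x)
      = ∑ x ∈ univ.erase b, w x * cc R w (P x) := by
    refine Finset.sum_congr rfl (fun x hx => ?_)
    rw [Function.update_of_ne (Finset.ne_of_mem_erase hx)]
  rw [this]
  simp only [Function.update_self]
  ring

/-- minimal pairs -/
def MinPair (R : V → Finset V) (w : V → ℝ) (P Q : V → Finset V) : Prop :=
  Pair R P Q ∧ ∀ P' Q', Pair R P' Q' → EE R w P + EE R w Q ≤ EE R w P' + EE R w Q'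

theorem exists_minPair {R : V → Finset V} (hor : ∀ x y, y ∈ R x → x ∈ R y → x = y)
    (w : V → ℝ) : ∃ P Q, MinPair R w P Q := by
  have hne : ({x : (V → Finset V) × (V → Finset V) | Pair R x.1 x.2}).Nonempty :=
    ⟨(R, R), ⟨fun _ => Finset.Subset.refl _, fun _ => Finset.Subset.refl _, hor⟩⟩
  obtain ⟨x, hx, hmin⟩ := Set.exists_min_image
    ({x : (V → Finset V) × (V → Finset V) | Pair R x.1 x.2})
    (fun x => EE R w x.1 + EE R w x.2) (Set.toFinite _) hne
  exact ⟨x.1, x.2, hx, fun P' Q' h => hmin (P', Q') h⟩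

section opt

variable {R P Q : V → Finset V} {w : V → ℝ}

/-- (O1) -/
theorem MinPair.o1 (h : MinPair R w P Q) (hw : ∀ x, 0 < w x) {b : V} {S : Finset V}
    (h1 : Q b ⊆ S) (h2 : S ⊆ mx P b) : cc R w (Q b) ≤ cc R w S := by
  have hp : Pair R P (Function.update Q b S) := by
    refine ⟨h.1.p, fun a => ?_, fun a c hc ha => ?_⟩
    · by_cases hab : a = b
      · subst hab
        rw [Function.update_self]
        exact (h.1.q a).trans h1
      · rw [Function.update_of_ne hab]
        exact h.1.q a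
    · by_cases hcb : c = b
      · subst hcb
        rw [Function.update_self] at ha
        exact h.1.mx.s a c hc (h2 ha)
      · rw [Function.update_of_ne hcb] at ha
        exact h.1.s a c hc ha
  have h3 := h.2 _ _ hp
  rw [EE_update] at h3
  have h4 : w b * cc R w (Q b) ≤ w b * cc R w S := by linarith
  exact le_of_mul_le_mul_left h4 (hw b)

/-- (O2) -/
theorem MinPair.o2 (h : MinPair R w P Q) (hw : ∀ x, 0 < w x) {a : V} {O : Finset V}
    (hO : ∀ b ∈ O, b ∉ P a ∧ a ∉ Q b) :
    wt w O ≤ wt w (nb R O \ nb R (P a)) := by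
  have hp : Pair R (Function.update P a (P a ∪ O)) Q := by
    refine ⟨fun c => ?_, h.1.q, fun c b hb hc => ?_⟩
    · by_cases hab : c = a
      · subst hab
        rw [Function.update_self]
        exact (h.1.p c).trans Finset.subset_union_left
      · rw [Function.update_of_ne hab]
        exact h.1.p c
    · by_cases hca : c = a
      · subst hca
        rw [Function.update_self, mem_union] at hb
        rcases hb with hb | hb
        · exact h.1.s c b hb hc
        · exact absurd hc (hO b hb).2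
      · rw [Function.update_of_ne hca] at hb
        exact h.1.s c b hb hc
  have h3 := h.2 _ _ hp
  rw [EE_update] at h3
  have h4 : w a * cc R w (P a) ≤ w a * cc R w (P a ∪ O) := by linarith
  have h5 := le_of_mul_le_mul_left h4 (hw a)
  unfold cc at h5
  have e1 : nb R (P a ∪ O) = nb R (P a) ∪ (nb R O \ nb R (P a)) := by
    ext y
    simp only [mem_nb, mem_union, mem_sdiff]
    constructor
    · rintro ⟨x, hx | hx, hy⟩
      · exact Or.inl ⟨x, hx, hy⟩
      · by_cases hc : ∃ x ∈ P a, y ∈ R x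
        · exact Or.inl hc
        · exact Or.inr ⟨⟨x, hx, hy⟩, hc⟩
    · rintro (⟨x, hx, hy⟩ | ⟨⟨x, hx, hy⟩, _⟩)
      · exact ⟨x, Or.inl hx, hy⟩
      · exact ⟨x, Or.inr hx, hy⟩
  have e2 : wt w (nb R (P a ∪ O)) = wt w (nb R (P a)) + wt w (nb R O \ nb R (P a)) := by
    rw [e1]
    unfold wt
    exact Finset.sum_union Finset.disjoint_sdiff
  have e3 : wt w (P a ∪ O) = wt w (P a) + wt w O := by
    unfold wt
    refine Finset.sum_union ?_
    rw [Finset.disjoint_left]
    intro x hx hx'
    exact (hO x hx').1 hx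
  rw [e2, e3] at h5
  linarith

/-- one intersection -/
theorem MinPair.f2one (h : MinPair R w P Q) (hw : ∀ x, 0 < w x) {x : V} {T : Finset V}
    (hT : T ⊆ mx P x) : cc R w (T ∩ Q x) ≤ cc R w T := by
  have h1 := cc_submod R (fun x => (hw x).le) T (Q x)
  have h2 : cc R w (Q x) ≤ cc R w (T ∪ Q x) :=
    h.o1 hw Finset.subset_union_right (Finset.union_subset hT (h.1.sub_mx x))
  linarith

/-- (F2) -/
theorem MinPair.f2 (h : MinPair R w P Q) (hw : ∀ x, 0 < w x) {y : V} {S : Finset V}
    (h1 : inn R Q y ⊆ S) (h2 : S ⊆ inn R (mx P) y) :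
    cc R w (inn R Q y) ≤ cc R w S := by
  have key : ∀ F : Finset V, (∀ x ∈ F, y ∈ R x) →
      cc R w (S.filter (fun v => ∀ x ∈ F, v ∈ Q x)) ≤ cc R w S := by
    intro F
    induction F using Finset.induction_on with
    | empty => intro _; simp
    | insert a F ha ih =>
      intro hF
      have ih' := ih (fun x hx => hF x (mem_insert_of_mem hx))
      have hT : S.filter (fun v => ∀ x ∈ F, v ∈ Q x) ⊆ mx P a := by
        intro v hv
        exact mem_inn.1 (h2 (mem_filter.1 hv).1) a (hF a (mem_insert_self a F))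
      have h3 := h.f2one hw hT
      have h4 : S.filter (fun v => ∀ x ∈ insert a F, v ∈ Q x)
          = S.filter (fun v => ∀ x ∈ F, v ∈ Q x) ∩ Q a := by
        ext v
        simp only [mem_filter, mem_inter, mem_insert, forall_eq_or_imp]
        tauto
      rw [h4]
      exact h3.trans ih'
  have h5 := key (univ.filter (fun x => y ∈ R x)) (fun x hx => (mem_filter.1 hx).2)
  have h6 : S.filter (fun v => ∀ x ∈ univ.filter (fun x => y ∈ R x), v ∈ Q x) = inn R Q y := by
    ext v
    simp only [mem_filter, mem_univ, true_and, mem_inn]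
    constructor
    · exact fun hv => hv.2
    · exact fun hv => ⟨h1 (mem_inn.2 hv), hv⟩
  rw [h6] at h5
  exact h5

/-- (L) -/
theorem MinPair.ineqL (h : MinPair R w P Q) (hR : ∀ x, x ∈ R x) (hw : ∀ x, 0 < w x) :
    ∑ b, w b * (cc R w (mx P b) - cc R w (Q b))
      ≤ ∑ y, w y * (cc R w (inn R (mx P) y) - cc R w (inn R Q y)) := by
  obtain ⟨e, he⟩ : ∃ e : V → ℕ, Function.Injective e :=
    ⟨fun v => (Fintype.equivFin V v : ℕ), fun a b hab =>
      (Fintype.equivFin V).injective (Fin.ext hab)⟩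
  have hsm := cc_submod R (fun x => (hw x).le)
  -- telescoping
  have t1 : ∀ b, ∑ a ∈ mx P b \ Q b, mg e (cc R w) (mx P b) (mx P b \ Q b) a
      = cc R w (mx P b) - cc R w (Q b) := by
    intro b
    rw [mg_sum he]
    congr 1
    apply le_antisymm
    · have h1 := hh_le (cc R w) (mx P b) (Finset.Subset.refl (mx P b \ Q b))
      rw [Finset.sdiff_sdiff_eq_self (h.1.sub_mx b)] at h1
      exact h1
    · obtain ⟨K', hK', hK⟩ := hh_exists (cc R w) (mx P b) (mx P b \ Q b)
      rw [hK]
      apply h.o1 hw _ Finset.sdiff_subset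
      intro v hv
      rw [mem_sdiff]
      exact ⟨h.1.sub_mx b hv, fun hv' => (mem_sdiff.1 (hK' hv')).2 hv⟩
  have hYM : ∀ y, inn R Q y ⊆ inn R (mx P) y := by
    intro y v hv
    rw [mem_inn] at hv ⊢
    exact fun a ha => h.1.sub_mx a (hv a ha)
  have t2 : ∀ y, ∑ a ∈ inn R (mx P) y \ inn R Q y,
      mg e (cc R w) (inn R (mx P) y) (inn R (mx P) y \ inn R Q y) a
      = cc R w (inn R (mx P) y) - cc R w (inn R Q y) := by
    intro y
    rw [mg_sum he]
    congr 1
    apply le_antisymm
    · have h1 := hh_le (cc R w) (inn R (mx P) y) (Finset.Subset.refl (inn R (mx P) y \ inn R Q y))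
      rw [Finset.sdiff_sdiff_eq_self (hYM y)] at h1
      exact h1
    · obtain ⟨K', hK', hK⟩ := hh_exists (cc R w) (inn R (mx P) y) (inn R (mx P) y \ inn R Q y)
      rw [hK]
      apply h.f2 hw _ Finset.sdiff_subset
      intro v hv
      rw [mem_sdiff]
      exact ⟨hYM y hv, fun hv' => (mem_sdiff.1 (hK' hv')).2 hv⟩
  -- row inequality
  have row : ∀ a, ∑ b ∈ univ.filter (fun b => a ∈ mx P b \ Q b),
        w b * mg e (cc R w) (mx P b) (mx P b \ Q b) a
      ≤ ∑ y ∈ univ.filter (fun y => a ∈ inn R (mx P) y \ inn R Q y),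
        w y * mg e (cc R w) (inn R (mx P) y) (inn R (mx P) y \ inn R Q y) a := by
    intro a
    have hnew : ∀ b ∈ univ.filter (fun b => a ∈ mx P b \ Q b), ∀ y ∈ R b \ nb R (P a),
        a ∈ inn R (mx P) y \ inn R Q y := by
      intro b hb y hy
      rw [mem_filter, mem_sdiff] at hb
      rw [mem_sdiff] at hy
      rw [mem_sdiff, mem_inn, mem_inn]
      refine ⟨fun x hx => ?_, fun hcon => hb.2.2 (hcon b hy.1)⟩
      rw [mem_mx]
      right
      intro hxa
      exact hy.2 (mem_nb.2 ⟨x, hxa, hx⟩)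
    refine layer (fun b => R b \ nb R (P a)) (fun x => (hw x).le) _ _
      (fun b => mg e (cc R w) (mx P b) (mx P b \ Q b) a)
      (fun y => mg e (cc R w) (inn R (mx P) y) (inn R (mx P) y \ inn R Q y) a)
      (fun b _ => mg_nonneg _ _ _ _ _) ?_ ?_ ?_ (fun y _ => mg_nonneg _ _ _ _ _)
    · intro b hb y hy
      have hn := hnew b hb y hy
      have hyb : y ∈ R b := (mem_sdiff.1 hy).1
      refine mg_le hsm ?_ ?_ (mem_sdiff.1 hn).1
      · intro v hv
        exact mem_inn.1 hv b hyb
      · intro v hv hvM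
        rw [mem_sdiff]
        exact ⟨hvM, fun hcon => (mem_sdiff.1 hv).2 (mem_inn.1 hcon b hyb)⟩
    · intro O hO
      have h1 : ∀ b ∈ O, b ∉ P a ∧ a ∉ Q b := by
        intro b hb
        have h2 := hO hb
        rw [mem_filter, mem_sdiff, mem_mx] at h2
        refine ⟨?_, h2.2.2⟩
        rcases h2.2.1 with h3 | h3
        · exfalso
          subst h3
          exact h2.2.2 (h.1.q a (hR a))
        · exact h3
      have h2 := h.o2 hw h1
      have h3 : O.biUnion (fun b => R b \ nb R (P a)) = nb R O \ nb R (P a) := by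
        ext y
        simp only [mem_biUnion, mem_sdiff, nb]
        constructor
        · rintro ⟨b, hb, h1, h2⟩
          exact ⟨⟨b, hb, h1⟩, h2⟩
        · rintro ⟨⟨b, hb, h1⟩, h2⟩
          exact ⟨b, hb, h1, h2⟩
      rw [h3]
      exact h2
    · intro b hb y hy
      rw [mem_filter]
      exact ⟨mem_univ y, hnew b hb y hy⟩
  calc ∑ b, w b * (cc R w (mx P b) - cc R w (Q b))
      = ∑ b, ∑ a ∈ mx P b \ Q b, w b * mg e (cc R w) (mx P b) (mx P b \ Q b) a := by
        refine Finset.sum_congr rfl (fun b _ => ?_)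
        rw [← t1 b, Finset.mul_sum]
    _ = ∑ a, ∑ b ∈ univ.filter (fun b => a ∈ mx P b \ Q b),
        w b * mg e (cc R w) (mx P b) (mx P b \ Q b) a := by
        refine Finset.sum_comm' ?_
        intro x y
        simp
    _ ≤ ∑ a, ∑ y ∈ univ.filter (fun y => a ∈ inn R (mx P) y \ inn R Q y),
        w y * mg e (cc R w) (inn R (mx P) y) (inn R (mx P) y \ inn R Q y) a :=
        Finset.sum_le_sum (fun a _ => row a)
    _ = ∑ y, ∑ a ∈ inn R (mx P) y \ inn R Q y,
        w y * mg e (cc R w) (inn R (mx P) y) (inn R (mx P) y \ inn R Q y) a := by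
        refine Finset.sum_comm' ?_
        intro x y
        simp
    _ = ∑ y, w y * (cc R w (inn R (mx P) y) - cc R w (inn R Q y)) := by
        refine Finset.sum_congr rfl (fun b _ => ?_)
        rw [← t2 b, Finset.mul_sum]

/-- Step 1 -/
theorem MinPair.step1 (h : MinPair R w P Q) (hR : ∀ x, x ∈ R x) (hw : ∀ x, 0 < w x) :
    EE R w (inn R P) + EE R w (inn R Q) ≤ EE R w P + EE R w Q := by
  have h1 := oneL hR (fun x => (hw x).le) h.1
  have h2 := h.ineqL hR hw
  have h3 : ∑ b, w b * (cc R w (mx P b) - cc R w (Q b)) = EE R w (mx P) - EE R w Q := by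
    unfold EE
    rw [← Finset.sum_sub_distrib]
    exact Finset.sum_congr rfl (fun x _ => by ring)
  have h4 : ∑ y, w y * (cc R w (inn R (mx P) y) - cc R w (inn R Q y))
      = EE R w (inn R (mx P)) - EE R w (inn R Q) := by
    unfold EE
    rw [← Finset.sum_sub_distrib]
    exact Finset.sum_congr rfl (fun x _ => by ring)
  rw [h3, h4] at h2
  linarith

end opt

/-- The core theorem. -/
theorem core [Nonempty V] {R : V → Finset V} (hR : ∀ x, x ∈ R x)
    (hor : ∀ x y, y ∈ R x → x ∈ R y → x = y) {w : V → ℝ} (hw : ∀ x, 0 < w x)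
    (hsink : ∀ a, ∃ b, b ≠ a ∧ b ∈ R a)
    (hG : ∀ S, nb R S ≠ S → cc R w (nb R S) < cc R w S) : False := by
  obtain ⟨P, Q, hmin⟩ := exists_minPair hor w
  have hpair := hmin.1.step0 hR
  have h1 := hmin.step1 hR hw
  have h2 := hmin.2 _ _ hpair
  have hle : ∀ S, cc R w (nb R S) ≤ cc R w S := by
    intro S
    by_cases hS : nb R S = S
    · rw [hS]
    · exact (hG S hS).le
  have h3 : EE R w (fun a => nb R (inn R P a)) ≤ EE R w (inn R P) :=
    Finset.sum_le_sum (fun a _ => mul_le_mul_of_nonneg_left (hle _) (hw a).le)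
  have h4 : EE R w (fun a => nb R (inn R Q a)) ≤ EE R w (inn R Q) :=
    Finset.sum_le_sum (fun a _ => mul_le_mul_of_nonneg_left (hle _) (hw a).le)
  have h5 : EE R w (fun a => nb R (inn R P a)) = EE R w (inn R P) := by linarith
  have hcl : ∀ a, nb R (inn R P a) = inn R P a := by
    intro a
    by_contra hne
    have : EE R w (fun a => nb R (inn R P a)) < EE R w (inn R P) := by
      refine Finset.sum_lt_sum
        (fun a _ => mul_le_mul_of_nonneg_left (hle _) (hw a).le) ⟨a, mem_univ a, ?_⟩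
      exact mul_lt_mul_of_pos_left (hG _ hne) (hw a)
    linarith
  -- minimal nonempty closed set
  have hne : ({S : Finset V | S.Nonempty ∧ nb R S = S}).Nonempty := by
    refine ⟨univ, univ_nonempty, ?_⟩
    ext y
    simp only [mem_univ, iff_true]
    exact mem_nb.2 ⟨y, mem_univ y, hR y⟩
  obtain ⟨S, ⟨⟨a, haS⟩, hS⟩, hSmin⟩ := Set.exists_min_image
    ({S : Finset V | S.Nonempty ∧ nb R S = S}) (fun S => S.card) (Set.toFinite _) hne
  obtain ⟨b, hba, hb⟩ := hsink a
  have hbS : b ∈ S := by
    rw [← hS]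
    exact mem_nb.2 ⟨a, haS, hb⟩
  have hbX : b ∈ inn R P b := mem_inn.2 (fun s hs => hmin.1.p s hs)
  have hT : nb R (inn R P b ∩ S) = inn R P b ∩ S := by
    ext y
    constructor
    · intro hy
      obtain ⟨x, hx, hyx⟩ := mem_nb.1 hy
      rw [mem_inter] at hx ⊢
      constructor
      · rw [← hcl b]
        exact mem_nb.2 ⟨x, hx.1, hyx⟩
      · rw [← hS]
        exact mem_nb.2 ⟨x, hx.2, hyx⟩
    · intro hy
      exact mem_nb.2 ⟨y, hy, hR y⟩
  have hcard := hSmin (inn R P b ∩ S) ⟨⟨b, mem_inter.2 ⟨hbX, hbS⟩⟩, hT⟩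
  have heq : inn R P b ∩ S = S :=
    Finset.eq_of_subset_of_card_le Finset.inter_subset_right hcard
  have haX : a ∈ inn R P b := by
    have : a ∈ inn R P b ∩ S := by rw [heq]; exact haS
    exact (mem_inter.1 this).1
  have haY : a ∈ inn R Q a := mem_inn.2 (fun s hs => hmin.1.q s hs)
  exact hba (hpair.s b a (mem_nb.2 ⟨a, haX, hR a⟩) (mem_nb.2 ⟨a, haY, hb⟩))

end P038.H684
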